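import Vale.Agent.P196.FullGroup
import Vale.Agent.P196.Ends

/-!
# Finitely presented simple groups: one-dimensional actions and exhaustions with bounded boundary
-/

namespace Vale.Agent.Results.P196.LineLikeObstruction

universe u v

theorem result :
    (∀ (G : Type u) [Group G] [Group.IsFinitelyPresented G] [Infinite G] [IsSimpleGroup G]
      (k : ℕ) (ρ : G →* Equiv.Perm (ℤ × Fin k)),
      (∀ g, ∃ R : ℕ, ∀ z, |(ρ g z).1 - z.1| ≤ R) → ρ = 1) ∧
    (∀ (G : Type u) [Group G] [Group.IsFinitelyPresented G] [Infinite G] [IsSimpleGroup G]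
      (X : Type v) (T : Equiv.Perm X) (ρ : G →* Equiv.Perm X),
      (∀ g, ∃ R : ℕ, ∀ x, ∃ m : ℤ, |m| ≤ R ∧ ρ g x = (T ^ m) x) → ρ = 1) ∧
    (∀ (G : Type u) [Group G] [Group.IsFinitelyPresented G] [Infinite G] [IsSimpleGroup G]
      (X : Type v) (ρ : G →* Equiv.Perm X),
      (∀ x : X, (Set.range fun g => ρ g x).Infinite → ∃ F : ℕ → Finset X, Monotone F ∧
        (∀ g, ∃ t, ρ g x ∈ F t) ∧
        ∀ g, ∃ w : ℕ, ∀ t, {y | y ∈ F t ∧ ρ g y ∉ F t}.encard ≤ (w : ℕ∞)) → ρ = 1) := by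
  have hQ : ∀ (G : Type u) [Group G] [Infinite G] [IsSimpleGroup G],
      Vale.Agent.P196.NoFiniteQuotient G := by
    intro G _ _ _ Q _ _ φ
    rcases (φ.normal_ker).eq_bot_or_eq_top with h | h
    · exact absurd (Finite.of_injective φ ((φ.ker_eq_bot_iff).mp h)) (not_finite_iff_infinite.mpr ‹_›)
    · exact MonoidHom.ext fun g => MonoidHom.mem_ker.mp (h ▸ Subgroup.mem_top g)
  exact ⟨fun G _ _ _ _ k ρ hb => Vale.Agent.P196.trivial_of_bounded (hQ G) ρ hb,
    fun G _ _ _ _ X T ρ hb => Vale.Agent.P196.trivial_in_full_group (hQ G) T ρ hb,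
    fun G _ _ _ _ X ρ hF => Vale.Agent.P196.trivial_of_exhaustion (hQ G) ρ hF⟩

end Vale.Agent.Results.P196.LineLikeObstruction
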